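import Mathlib

/-!
# P038 (H120): the layer cake in the price (Step 1 of note 22960)

`f` submodular, `w > 0`; `B a ⊆ U a` families such that `B a` minimises `f - w` between `B a` and
`U a` (rows) and the column Hall condition holds. Then
`∑ w a (c (U a) - c (B a)) ≤ ∑ w a (c (U' a) - c (B' a))`, `c = f - w`, where the dash is the
intersection over `Nn a`.
-/

namespace Vale.Agent.P038.H120

open Finset

variable {V : Type*} [Fintype V] [DecidableEq V]

/-- Weight of a set. -/
noncomputable def Wt (w : V → ℝ) (S : Finset V) : ℝ := ∑ v ∈ S, w v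

/-- `Psi lam S = f S - lam w(S)`. -/
noncomputable def Psi (f : Finset V → ℝ) (w : V → ℝ) (lam : ℝ) (S : Finset V) : ℝ :=
  f S - lam * Wt w S

/-- Submodular set functions. -/
def Submod (f : Finset V → ℝ) : Prop := ∀ S T, f (S ∪ T) + f (S ∩ T) ≤ f S + f T

theorem Wt_modular (w : V → ℝ) (S T : Finset V) :
    Wt w (S ∪ T) + Wt w (S ∩ T) = Wt w S + Wt w T := by
  unfold Wt
  exact Finset.sum_union_inter

theorem Wt_sdiff' {w : V → ℝ} {S T : Finset V} (h : T ⊆ S) :
    Wt w S - Wt w T = Wt w (S \ T) := by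
  have := Finset.sum_sdiff (f := w) h
  unfold Wt
  linarith

theorem Wt_nonneg {w : V → ℝ} (hw : ∀ v, 0 < w v) (S : Finset V) : 0 ≤ Wt w S :=
  Finset.sum_nonneg fun v _ => (hw v).le

theorem Wt_mono {w : V → ℝ} (hw : ∀ v, 0 < w v) {S T : Finset V} (h : S ⊆ T) :
    Wt w S ≤ Wt w T :=
  Finset.sum_le_sum_of_subset_of_nonneg h fun v _ _ => (hw v).le

theorem Psi_submod {f : Finset V → ℝ} (hf : Submod f) (w : V → ℝ) (lam : ℝ) :
    Submod (Psi f w lam) := by
  intro S T
  have h1 := hf S T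
  have h2 := Wt_modular w S T
  have h3 : lam * Wt w (S ∪ T) + lam * Wt w (S ∩ T) = lam * Wt w S + lam * Wt w T := by
    rw [← mul_add, h2, mul_add]
  unfold Psi
  linarith

/-- `L` is the largest minimiser of `Psi lam` between `B` and `U`. -/
structure IsL (f : Finset V → ℝ) (w : V → ℝ) (lam : ℝ) (B U L : Finset V) : Prop where
  lower : B ⊆ L
  upper : L ⊆ U
  min : ∀ S, B ⊆ S → S ⊆ U → Psi f w lam L ≤ Psi f w lam S
  largest : ∀ S, B ⊆ S → S ⊆ U → Psi f w lam S ≤ Psi f w lam L → S ⊆ L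

theorem exists_L {f : Finset V → ℝ} (hf : Submod f) (w : V → ℝ) (lam : ℝ) {B U : Finset V}
    (h : B ⊆ U) : ∃ L, IsL f w lam B U L := by
  classical
  obtain ⟨S0, hS0, hmin⟩ := Finset.exists_min_image
    (Finset.univ.filter fun S : Finset V => B ⊆ S ∧ S ⊆ U) (Psi f w lam)
    ⟨B, by simp [h]⟩
  simp only [Finset.mem_filter, Finset.mem_univ, true_and] at hS0 hmin
  obtain ⟨L, hL, hmax⟩ := Finset.exists_max_image
    (Finset.univ.filter fun S : Finset V => (B ⊆ S ∧ S ⊆ U) ∧ Psi f w lam S ≤ Psi f w lam S0)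
    Finset.card ⟨S0, by simp [hS0]⟩
  simp only [Finset.mem_filter, Finset.mem_univ, true_and] at hL hmax
  refine ⟨L, hL.1.1, hL.1.2, fun S h1 h2 => hL.2.trans (hmin S ⟨h1, h2⟩), fun S h1 h2 h3 => ?_⟩
  have h4 : Psi f w lam S0 ≤ Psi f w lam (S ∩ L) :=
    hmin _ ⟨Finset.subset_inter h1 hL.1.1, Finset.inter_subset_left.trans h2⟩
  have h5 := Psi_submod hf w lam S L
  have h6 : Psi f w lam (S ∪ L) ≤ Psi f w lam S0 := by linarith [hL.2]
  have h7 := hmax (S ∪ L) ⟨⟨h1.trans Finset.subset_union_left,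
    Finset.union_subset h2 hL.1.2⟩, h6⟩
  have h8 : L = S ∪ L := Finset.eq_of_subset_of_card_le Finset.subset_union_right h7
  rw [h8]
  exact Finset.subset_union_left

open Classical in
/-- The largest minimiser. -/
noncomputable def LL (f : Finset V → ℝ) (w : V → ℝ) (lam : ℝ) (B U : Finset V) : Finset V :=
  if h : ∃ L, IsL f w lam B U L then h.choose else ∅

theorem LL_spec {f : Finset V → ℝ} (hf : Submod f) (w : V → ℝ) (lam : ℝ) {B U : Finset V}
    (h : B ⊆ U) : IsL f w lam B U (LL f w lam B U) := by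
  have h1 := exists_L hf w lam h
  unfold LL
  rw [dif_pos h1]
  exact h1.choose_spec

theorem LL_mono {f : Finset V → ℝ} (hf : Submod f) (w : V → ℝ) (lam : ℝ) {B U B' U' : Finset V}
    (h : B ⊆ U) (h' : B' ⊆ U') (hB : B' ⊆ B) (hU : U' ⊆ U) :
    LL f w lam B' U' ⊆ LL f w lam B U := by
  have a := LL_spec hf w lam h
  have a' := LL_spec hf w lam h'
  set L := LL f w lam B U
  set L' := LL f w lam B' U'
  have h1 := Psi_submod hf w lam L' L
  have h2 := a'.min (L' ∩ L) (Finset.subset_inter a'.lower (hB.trans a.lower))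
    (Finset.inter_subset_left.trans a'.upper)
  have h3 := a.largest (L' ∪ L) (a.lower.trans Finset.subset_union_right)
    (Finset.union_subset (a'.upper.trans hU) a.upper) (by linarith)
  exact Finset.subset_union_left.trans h3

/-- The two bounds for the increments of the minimum. -/
theorem step_lower {f : Finset V → ℝ} (hf : Submod f) (w : V → ℝ) {lam lam' : ℝ}
    {B U : Finset V} (h : B ⊆ U) :
    Psi f w lam' (LL f w lam' B U) ≤
      Psi f w lam (LL f w lam B U) - (lam' - lam) * Wt w (LL f w lam B U) := by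
  have a := LL_spec hf w lam h
  have a' := LL_spec hf w lam' h
  have h1 := a'.min _ a.lower a.upper
  unfold Psi at h1 ⊢
  linarith

theorem step_upper {f : Finset V → ℝ} (hf : Submod f) (w : V → ℝ) {lam lam' : ℝ}
    {B U : Finset V} (h : B ⊆ U) :
    Psi f w lam (LL f w lam B U) ≤
      Psi f w lam' (LL f w lam' B U) + (lam' - lam) * Wt w (LL f w lam' B U) := by
  have a := LL_spec hf w lam h
  have a' := LL_spec hf w lam' h
  have h1 := a.min _ a'.lower a'.upper
  unfold Psi at h1 ⊢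
  linarith

/-- a price at which everything is bought -/
theorem exists_big (f : Finset V → ℝ) {w : V → ℝ} (hw : ∀ v, 0 < w v) :
    ∃ Lam : ℝ, 1 ≤ Lam ∧ ∀ S U : Finset V, S ⊆ U → Psi f w Lam U ≤ Psi f w Lam S := by
  classical
  obtain ⟨M, hM⟩ := (Set.finite_range (fun p : Finset V × Finset V =>
    (f p.2 - f p.1) / (Wt w p.2 - Wt w p.1))).bddAbove
  refine ⟨max 1 M, le_max_left _ _, fun S U hSU => ?_⟩
  by_cases h : S = U
  · rw [h]
  · have h1 : 0 < Wt w U - Wt w S := by
      rw [Wt_sdiff' hSU]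
      have h2 : (U \ S).Nonempty := by
        rw [Finset.sdiff_nonempty]
        exact fun h3 => h (Finset.Subset.antisymm hSU h3)
      exact Finset.sum_pos (fun v _ => hw v) h2
    have h2 : (f U - f S) / (Wt w U - Wt w S) ≤ M := hM ⟨(S, U), rfl⟩
    have h3 : f U - f S ≤ max 1 M * (Wt w U - Wt w S) := by
      rw [div_le_iff₀ h1] at h2
      exact h2.trans (mul_le_mul_of_nonneg_right (le_max_right _ _) h1.le)
    unfold Psi
    linarith

section Tele

variable {f : Finset V → ℝ} (hf : Submod f) {w : V → ℝ} {Lam : ℝ} {B U : Finset V}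
  (h : B ⊆ U) (hbig : Psi f w Lam U ≤ Psi f w Lam (LL f w Lam B U))
  (hB : ∀ S, B ⊆ S → S ⊆ U → Psi f w 1 B ≤ Psi f w 1 S)

include hf h hbig hB

theorem tele_eq (n : ℕ) (d : ℝ) (hn : n * d = Lam - 1) :
    Psi f w 1 U - Psi f w 1 B = ∑ i ∈ Finset.range n, (d * Wt w U +
      (Psi f w (1 + (i + 1 : ℕ) * d) (LL f w (1 + (i + 1 : ℕ) * d) B U) -
        Psi f w (1 + i * d) (LL f w (1 + i * d) B U))) := by
  have a := LL_spec hf w Lam h
  have a1 := LL_spec hf w 1 h
  have e1 : Psi f w Lam U = Psi f w Lam (LL f w Lam B U) :=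
    le_antisymm hbig (a.min U h (Finset.Subset.refl _))
  have e2 : Psi f w 1 B = Psi f w 1 (LL f w 1 B U) :=
    le_antisymm (hB _ a1.lower a1.upper) (a1.min B (Finset.Subset.refl _) h)
  rw [Finset.sum_add_distrib, Finset.sum_range_sub
    (fun i : ℕ => Psi f w (1 + (i : ℝ) * d) (LL f w (1 + (i : ℝ) * d) B U)) n, Finset.sum_const,
    Finset.card_range, hn, e2]
  have e3 : (1 : ℝ) + (Lam - 1) = Lam := by ring
  have e4 : (1 : ℝ) + ((0 : ℕ) : ℝ) * d = 1 := by simp
  rw [e3, e4, ← e1]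
  have e5 : n • (d * Wt w U) = (Lam - 1) * Wt w U := by
    rw [nsmul_eq_mul, ← mul_assoc, hn]
  rw [e5]
  unfold Psi
  ring

theorem tele_upper (n : ℕ) (d : ℝ) (hn : n * d = Lam - 1) :
    Psi f w 1 U - Psi f w 1 B ≤
      ∑ i ∈ Finset.range n, d * (Wt w U - Wt w (LL f w (1 + i * d) B U)) := by
  rw [tele_eq hf h hbig hB n d hn]
  refine Finset.sum_le_sum fun i _ => ?_
  have h1 := step_lower hf w (lam := 1 + i * d) (lam' := 1 + (i + 1 : ℕ) * d) h
  have h2 : (1 + ((i + 1 : ℕ) : ℝ) * d) - (1 + i * d) = d := by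
    push_cast
    ring
  rw [h2] at h1
  linarith

theorem tele_lower (n : ℕ) (d : ℝ) (hn : n * d = Lam - 1) :
    ∑ i ∈ Finset.range n, d * (Wt w U - Wt w (LL f w (1 + (i + 1 : ℕ) * d) B U)) ≤
      Psi f w 1 U - Psi f w 1 B := by
  rw [tele_eq hf h hbig hB n d hn]
  refine Finset.sum_le_sum fun i _ => ?_
  have h1 := step_upper hf w (lam := 1 + i * d) (lam' := 1 + (i + 1 : ℕ) * d) h
  have h2 : (1 + ((i + 1 : ℕ) : ℝ) * d) - (1 + i * d) = d := by
    push_cast
    ring
  rw [h2] at h1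
  linarith

end Tele

/-- Intersection of the rows over `Nn a`. -/
def cap (Nn : V → Finset V) (X : V → Finset V) (a : V) : Finset V :=
  Finset.univ.filter fun b => ∀ x ∈ Nn a, b ∈ X x

theorem mem_cap {Nn : V → Finset V} {X : V → Finset V} {a b : V} :
    b ∈ cap Nn X a ↔ ∀ x ∈ Nn a, b ∈ X x := by
  simp [cap]

theorem cap_sub {Nn : V → Finset V} {X : V → Finset V} {a x : V} (hx : x ∈ Nn a) :
    cap Nn X a ⊆ X x := fun _ hb => mem_cap.1 hb x hx

theorem cap_mono {Nn : V → Finset V} {X Y : V → Finset V} (h : ∀ a, X a ⊆ Y a) (a : V) :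
    cap Nn X a ⊆ cap Nn Y a := fun _ hb => mem_cap.2 fun x hx => h x (mem_cap.1 hb x hx)

/-- the intersection of the rows is again a minimiser -/
theorem cap_min {f : Finset V → ℝ} (hf : Submod f) {w : V → ℝ} {Nn : V → Finset V}
    {B U : V → Finset V} (hBU : ∀ a, B a ⊆ U a)
    (hR : ∀ a S, B a ⊆ S → S ⊆ U a → Psi f w 1 (B a) ≤ Psi f w 1 S) (a : V) (S : Finset V)
    (h1 : cap Nn B a ⊆ S) (h2 : S ⊆ cap Nn U a) : Psi f w 1 (cap Nn B a) ≤ Psi f w 1 S := by
  classical
  have key : ∀ T : Finset V, T ⊆ Nn a →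
      Psi f w 1 (S.filter fun b => ∀ x ∈ T, b ∈ B x) ≤ Psi f w 1 S := by
    intro T
    induction T using Finset.induction_on with
    | empty => intro _; simp
    | insert x T hx ih =>
      intro hT
      have hxN : x ∈ Nn a := hT (Finset.mem_insert_self _ _)
      have ih' := ih ((Finset.subset_insert _ _).trans hT)
      set ST := S.filter fun b => ∀ x ∈ T, b ∈ B x with hST
      have e : (S.filter fun b => ∀ y ∈ insert x T, b ∈ B y) = ST ∩ B x := by
        ext b
        simp only [hST, Finset.mem_filter, Finset.mem_inter, Finset.mem_insert, forall_eq_or_imp]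
        tauto
      rw [e]
      have h3 := Psi_submod hf w 1 ST (B x)
      have h4 : Psi f w 1 (B x) ≤ Psi f w 1 (ST ∪ B x) :=
        hR x _ Finset.subset_union_right (Finset.union_subset
            (((Finset.filter_subset _ _).trans h2).trans (cap_sub hxN)) (hBU x))
      linarith
  have h3 := key (Nn a) (Finset.Subset.refl _)
  have e : (S.filter fun b => ∀ x ∈ Nn a, b ∈ B x) = cap Nn B a := by
    ext b
    rw [Finset.mem_filter, mem_cap]
    exact ⟨fun h => h.2, fun h => ⟨h1 (mem_cap.2 h), h⟩⟩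
  rwa [e] at h3

/-- the two families of remainders, one price `lam` -/
theorem key_lam {f : Finset V → ℝ} (hf : Submod f) {w : V → ℝ} (hw : ∀ v, 0 < w v)
    {Nn : V → Finset V} {B U : V → Finset V} (hBU : ∀ a, B a ⊆ U a)
    (hC : ∀ (b : V) (K : Finset V), (∀ a ∈ K, b ∈ U a ∧ b ∉ B a) →
      Wt w K ≤ Wt w (Finset.univ.filter fun a' => (∃ a ∈ K, a ∈ Nn a') ∧ ∀ x ∈ Nn a', b ∈ U x))
    (lam : ℝ) :
    ∑ a, w a * (Wt w (U a) - Wt w (LL f w lam (B a) (U a))) ≤
      ∑ a, w a * (Wt w (cap Nn U a) - Wt w (LL f w lam (cap Nn B a) (cap Nn U a))) := by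
  classical
  have hcap : ∀ a, cap Nn B a ⊆ cap Nn U a := cap_mono hBU
  set L : V → Finset V := fun a => LL f w lam (B a) (U a) with hL
  set L' : V → Finset V := fun a => LL f w lam (cap Nn B a) (cap Nn U a) with hL'
  have e : ∀ X Y : V → Finset V, (∀ a, Y a ⊆ X a) →
      ∑ a, w a * (Wt w (X a) - Wt w (Y a)) =
        ∑ b, w b * Wt w (Finset.univ.filter fun a => b ∈ X a ∧ b ∉ Y a) := by
    intro X Y hXY
    have e1 : ∀ a, w a * (Wt w (X a) - Wt w (Y a)) =
        ∑ b, (if b ∈ X a ∧ b ∉ Y a then w a * w b else 0) := by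
      intro a
      rw [Wt_sdiff' (hXY a)]
      unfold Wt
      rw [Finset.mul_sum, ← Finset.sum_filter]
      refine Finset.sum_congr ?_ fun _ _ => rfl
      ext b
      simp
    have e2 : ∀ b, w b * Wt w (Finset.univ.filter fun a => b ∈ X a ∧ b ∉ Y a) =
        ∑ a, (if b ∈ X a ∧ b ∉ Y a then w a * w b else 0) := by
      intro b
      unfold Wt
      rw [Finset.mul_sum, ← Finset.sum_filter]
      refine Finset.sum_congr rfl fun a _ => mul_comm _ _
    rw [Finset.sum_congr rfl fun a _ => e1 a, Finset.sum_comm,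
      Finset.sum_congr rfl fun b _ => (e2 b).symm]
  have s1 : ∀ a, L a ⊆ U a := fun a => (LL_spec hf w lam (hBU a)).upper
  have s2 : ∀ a, L' a ⊆ cap Nn U a := fun a => (LL_spec hf w lam (hcap a)).upper
  rw [e U L s1, e (cap Nn U) L' s2]
  refine Finset.sum_le_sum fun b _ => mul_le_mul_of_nonneg_left ?_ (hw b).le
  refine (hC b _ ?_).trans (Wt_mono hw ?_)
  · intro a ha
    simp only [Finset.mem_filter, Finset.mem_univ, true_and] at ha
    exact ⟨ha.1, fun h => ha.2 ((LL_spec hf w lam (hBU a)).lower h)⟩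
  · intro a' ha'
    simp only [Finset.mem_filter, Finset.mem_univ, true_and] at ha' ⊢
    obtain ⟨⟨a, ha, haN⟩, hall⟩ := ha'
    refine ⟨mem_cap.2 hall, fun hb => ha.2 ?_⟩
    exact LL_mono hf w lam (hBU a) (hcap a') (cap_sub haN) (cap_sub haN) hb

/-- **Step 1 of note 22960.** -/
theorem star {f : Finset V → ℝ} (hf : Submod f) {w : V → ℝ} (hw : ∀ v, 0 < w v)
    {Nn : V → Finset V} {B U : V → Finset V} (hBU : ∀ a, B a ⊆ U a)
    (hR : ∀ a S, B a ⊆ S → S ⊆ U a → Psi f w 1 (B a) ≤ Psi f w 1 S)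
    (hC : ∀ (b : V) (K : Finset V), (∀ a ∈ K, b ∈ U a ∧ b ∉ B a) →
      Wt w K ≤ Wt w (Finset.univ.filter fun a' => (∃ a ∈ K, a ∈ Nn a') ∧ ∀ x ∈ Nn a', b ∈ U x)) :
    ∑ a, w a * (Psi f w 1 (U a) - Psi f w 1 (B a)) ≤
      ∑ a, w a * (Psi f w 1 (cap Nn U a) - Psi f w 1 (cap Nn B a)) := by
  classical
  obtain ⟨Lam, hLam, hbig⟩ := exists_big f hw
  have hcap : ∀ a, cap Nn B a ⊆ cap Nn U a := cap_mono hBU
  set C : ℝ := (Lam - 1) * (Wt w Finset.univ * Wt w Finset.univ) with hCdef
  have hmain : ∀ n : ℕ, 0 < n →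
      ∑ a, w a * (Psi f w 1 (U a) - Psi f w 1 (B a)) ≤
        ∑ a, w a * (Psi f w 1 (cap Nn U a) - Psi f w 1 (cap Nn B a)) + C / n := by
    intro n hn
    have hn' : (n : ℝ) ≠ 0 := Nat.cast_ne_zero.2 hn.ne'
    set d : ℝ := (Lam - 1) / n with hd
    have hnd : n * d = Lam - 1 := by
      rw [hd]
      field_simp
    have hd0 : 0 ≤ d := div_nonneg (by linarith) (Nat.cast_nonneg n)
    set R : ℕ → ℝ := fun i => ∑ a, w a * (Wt w (cap Nn U a) -
      Wt w (LL f w (1 + (i : ℝ) * d) (cap Nn B a) (cap Nn U a))) with hRdef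
    have hR0 : ∀ i, 0 ≤ R i := by
      intro i
      refine Finset.sum_nonneg fun a _ => mul_nonneg (hw a).le ?_
      have := Wt_mono hw (LL_spec hf w (1 + (i : ℝ) * d) (hcap a)).upper
      linarith
    have hRtop : ∀ i, R i ≤ Wt w Finset.univ * Wt w Finset.univ := by
      intro i
      have : R i ≤ ∑ a, w a * Wt w Finset.univ := by
        refine Finset.sum_le_sum fun a _ => mul_le_mul_of_nonneg_left ?_ (hw a).le
        have h1 := Wt_mono hw (Finset.subset_univ (cap Nn U a))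
        have h2 := Wt_nonneg hw (LL f w (1 + (i : ℝ) * d) (cap Nn B a) (cap Nn U a))
        linarith
      rw [← Finset.sum_mul] at this
      exact this
    have h1 : ∑ a, w a * (Psi f w 1 (U a) - Psi f w 1 (B a)) ≤
        ∑ i ∈ Finset.range n, d * R i := by
      have h2 : ∑ a, w a * (Psi f w 1 (U a) - Psi f w 1 (B a)) ≤
          ∑ a, w a * ∑ i ∈ Finset.range n,
            d * (Wt w (U a) - Wt w (LL f w (1 + (i : ℝ) * d) (B a) (U a))) := by
        refine Finset.sum_le_sum fun a _ => mul_le_mul_of_nonneg_left ?_ (hw a).le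
        exact tele_upper hf (hBU a)
          (hbig _ _ (LL_spec hf w Lam (hBU a)).upper) (hR a) n d hnd
      refine h2.trans ?_
      have h3 : ∑ a, w a * ∑ i ∈ Finset.range n,
            d * (Wt w (U a) - Wt w (LL f w (1 + (i : ℝ) * d) (B a) (U a))) =
          ∑ i ∈ Finset.range n, d * ∑ a, w a *
            (Wt w (U a) - Wt w (LL f w (1 + (i : ℝ) * d) (B a) (U a))) := by
        simp only [Finset.mul_sum]
        rw [Finset.sum_comm]
        refine Finset.sum_congr rfl fun i _ => Finset.sum_congr rfl fun a _ => ?_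
        ring
      rw [h3]
      refine Finset.sum_le_sum fun i _ => mul_le_mul_of_nonneg_left ?_ hd0
      exact key_lam hf hw hBU hC _
    have h4 : ∑ i ∈ Finset.range n, d * R (i + 1) ≤
        ∑ a, w a * (Psi f w 1 (cap Nn U a) - Psi f w 1 (cap Nn B a)) := by
      have h5 : ∑ i ∈ Finset.range n, d * R (i + 1) =
          ∑ a, w a * ∑ i ∈ Finset.range n, d * (Wt w (cap Nn U a) -
            Wt w (LL f w (1 + ((i + 1 : ℕ) : ℝ) * d) (cap Nn B a) (cap Nn U a))) := by
        simp only [hRdef, Finset.mul_sum]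
        rw [Finset.sum_comm]
        refine Finset.sum_congr rfl fun i _ => Finset.sum_congr rfl fun a _ => ?_
        ring
      rw [h5]
      refine Finset.sum_le_sum fun a _ => mul_le_mul_of_nonneg_left ?_ (hw a).le
      exact tele_lower hf (hcap a) (hbig _ _ (LL_spec hf w Lam (hcap a)).upper)
        (fun S h6 h7 => cap_min hf hBU hR a S h6 h7) n d hnd
    have h8 : ∑ i ∈ Finset.range n, d * R i =
        ∑ i ∈ Finset.range n, d * R (i + 1) + (d * R 0 - d * R n) := by
      have h9 := Finset.sum_range_succ (fun i => d * R i) n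
      have h10 := Finset.sum_range_succ' (fun i => d * R i) n
      linarith
    have h11 : d * R 0 - d * R n ≤ C / n := by
      have h12 : d * R 0 ≤ d * (Wt w Finset.univ * Wt w Finset.univ) :=
        mul_le_mul_of_nonneg_left (hRtop 0) hd0
      have h13 : 0 ≤ d * R n := mul_nonneg hd0 (hR0 n)
      have h14 : d * (Wt w Finset.univ * Wt w Finset.univ) = C / n := by
        rw [hd, hCdef]
        ring
      linarith
    linarith
  have hC0 : 0 ≤ C := mul_nonneg (by linarith)
    (mul_nonneg (Wt_nonneg hw _) (Wt_nonneg hw _))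
  refine le_of_forall_pos_le_add fun ε hε => ?_
  obtain ⟨n, hn⟩ := exists_nat_gt (C / ε)
  have hn0 : 0 < n := by
    have : (0 : ℝ) < n := lt_of_le_of_lt (div_nonneg hC0 hε.le) hn
    exact_mod_cast this
  have h1 := hmain n hn0
  have h2 : C / n ≤ ε := by
    rw [div_le_iff₀ (by exact_mod_cast hn0)]
    rw [div_lt_iff₀ hε] at hn
    linarith
  linarith

end Vale.Agent.P038.H120
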